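import Vale.Agent.P216I63.Un
import Vale.Agent.P216I63.Br2

/-!
P216: infinitely many closed geodesics of the Levi-Civita connection, all cases in one theorem.
-/

open Manifold Matrix Vale.Agent.P216J
open scoped ContDiff

namespace Vale.Agent.Results.P216.AAAAUnion

theorem result (E : Type) [NormedAddCommGroup E] [NormedSpace ℝ E] [FiniteDimensional ℝ E]
    (M : Type) [TopologicalSpace M] [T2Space M] [CompactSpace M] [ChartedSpace E M]
    [IsManifold 𝓘(ℝ, E) ∞ M] (g : Met 𝓘(ℝ, E) M) :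
    Sound g ∧ ∀ x₀ : M, 2 ≤ Module.finrank ℝ E →
      (Module.finrank ℝ E = 3 ∨
        (∃ n : ℕ, 2 ≤ n ∧ ((∃ q : Sph n → M, IsCoveringMap q) ∨ Detects (Sph n) n M)) ∨
        (∃ H : Subgroup (FundamentalGroup M x₀), H.FiniteIndex ∧
          (H = ⊥ ∨ Nonempty (Multiplicative ℤ ≃* H))) ∨
        (∃ (n : ℕ) (K : Type) (_ : Field K) (ρ : FundamentalGroup M x₀ →* GL (Fin n) K),
          Function.Injective ρ) ∨
        ∃ (Q : Type) (_ : Group Q) (f : FundamentalGroup M x₀ →* Q),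
          Function.Surjective f ∧ Wide Q) →
      InfinitelyMany g := by
  refine ⟨sound g, fun x₀ hn h => many ?_⟩
  rcases h with h | ⟨n, h2, ⟨q, h⟩ | h⟩ | h | h | ⟨Q, _, f, hf, h⟩
  · exact Vale.Agent.P216Z57.main g hn x₀ (Or.inl h)
  · exact Vale.Agent.P216Z57.main g hn x₀ (Or.inr (Or.inl ⟨n, q, h2, h⟩))
  · exact sphc g hn h2 h
  · exact Vale.Agent.P216Z57.main g hn x₀ (Or.inr (Or.inr (Or.inl h)))
  · exact Vale.Agent.P216Z57.main g hn x₀ (Or.inr (Or.inr (Or.inr h)))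
  · exact wide g x₀ f hf h

end Vale.Agent.Results.P216.AAAAUnion
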