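import Vale.Agent.P216Z57.Main
import Vale.Agent.P216I63.Br2

/-!
P216: infinitely many closed geodesics, with geodesics defined by the Levi-Civita connection.
-/

open Manifold Matrix Vale.Agent.P216J
open scoped ContDiff

namespace Vale.Agent.Results.P216.AAAIntrinsic

theorem result :
    (∀ n : ℕ, 2 ≤ n → ∀ g : Met 𝓘(ℝ, EuclideanSpace ℝ (Fin n)) (Sph n), InfinitelyMany g) ∧
    ∀ (E : Type) [NormedAddCommGroup E] [NormedSpace ℝ E] [FiniteDimensional ℝ E]
      (M : Type) [TopologicalSpace M] [T2Space M] [CompactSpace M] [ChartedSpace E M]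
      [IsManifold 𝓘(ℝ, E) ∞ M] (g : Met 𝓘(ℝ, E) M), Sound g ∧ ∀ x₀ : M, 2 ≤ Module.finrank ℝ E →
      (Module.finrank ℝ E = 3 ∨
        (∃ (n : ℕ) (q : Sph n → M), 2 ≤ n ∧ IsCoveringMap q) ∨
        (∃ H : Subgroup (FundamentalGroup M x₀), H.FiniteIndex ∧
          (H = ⊥ ∨ Nonempty (Multiplicative ℤ ≃* H))) ∨
        (∃ (n : ℕ) (K : Type) (_ : Field K) (ρ : FundamentalGroup M x₀ →* GL (Fin n) K),
          Function.Injective ρ)) →
      InfinitelyMany g :=
  ⟨fun n hn g => many (Vale.Agent.P216Z57.sphere n hn g), fun _ _ _ _ _ _ _ _ _ _ g =>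
    ⟨sound g, fun x₀ hn h => many (Vale.Agent.P216Z57.main g hn x₀ h)⟩⟩

end Vale.Agent.Results.P216.AAAIntrinsic
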