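import Vale.Agent.P216Z57.Main

open Manifold Matrix Vale.Agent.P216Z57
open scoped ContDiff

namespace Vale.Agent.Results.P216.AALiteral

theorem result :
    (∀ n : ℕ, 2 ≤ n → ∀ g : Met (EuclideanSpace ℝ (Fin n)) (Sph n), (images g).Infinite) ∧
    ∀ (E : Type) [NormedAddCommGroup E] [NormedSpace ℝ E] [FiniteDimensional ℝ E]
      (M : Type) [TopologicalSpace M] [T2Space M] [CompactSpace M] [ChartedSpace E M]
      [IsManifold 𝓘(ℝ, E) ∞ M] (g : Met E M) (x₀ : M), 2 ≤ Module.finrank ℝ E →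
      (Module.finrank ℝ E = 3 ∨
        (∃ (n : ℕ) (q : Sph n → M), 2 ≤ n ∧ IsCoveringMap q) ∨
        (∃ H : Subgroup (FundamentalGroup M x₀), H.FiniteIndex ∧
          (H = ⊥ ∨ Nonempty (Multiplicative ℤ ≃* H))) ∨
        (∃ (n : ℕ) (K : Type) (_ : Field K) (ρ : FundamentalGroup M x₀ →* GL (Fin n) K),
          Function.Injective ρ)) →
      (images g).Infinite :=
  ⟨fun n hn g => sphere n hn g, fun _ _ _ _ _ _ _ _ _ _ g x₀ hn h => main g hn x₀ h⟩

end Vale.Agent.Results.P216.AALiteral
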