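import Vale.Agent.P216C.Fin

open Bundle Manifold Matrix Vale.Agent.P216
open scoped ContDiff

namespace Vale.Agent.Results.P216.AllThreeManifolds

theorem result {E : Type} [NormedAddCommGroup E] [NormedSpace ℝ E] [FiniteDimensional ℝ E]
    {M : Type} [MetricSpace M] [CompactSpace M] [ChartedSpace E M] [IsManifold 𝓘(ℝ, E) ∞ M]
    [RiemannianBundle (fun x : M => TangentSpace 𝓘(ℝ, E) x)]
    [IsContMDiffRiemannianBundle 𝓘(ℝ, E) ∞ E (fun x : M => TangentSpace 𝓘(ℝ, E) x)]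
    [IsRiemannianManifold 𝓘(ℝ, E) M]
    (hn : 2 ≤ Module.finrank ℝ E) (x₀ : M)
    (h : Module.finrank ℝ E = 3 ∨
      (∃ H : Subgroup (FundamentalGroup M x₀), H.FiniteIndex ∧
          (H = ⊥ ∨ Nonempty (Multiplicative ℤ ≃* H))) ∨
      (∃ (n : ℕ) (K : Type) (_ : Field K) (ρ : FundamentalGroup M x₀ →* GL (Fin n) K),
          Function.Injective ρ)) :
    (primeClosedGeodesicImages M).Infinite := by
  rcases h with h | h | h
  · exact @P216C.goal E _ _ _ M _ _ _ _ _ _ _ ⟨x₀⟩ h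
  · exact P216M.main_old E hn x₀ (Or.inl h)
  · exact P216M.main_old E hn x₀ (Or.inr (Or.inl h))

end Vale.Agent.Results.P216.AllThreeManifolds
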